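import Vale.Agent.N075X.Full

/-!
# P075: the triangular Hilbert form is bounded, uniformly in the truncations, at every point of
the Hoelder line with all three exponents above two
-/

namespace Vale.Agent.Results.P075.A0AllExponents

open MeasureTheory Vale.Agent.P075.R Vale.Agent.N075X
open scoped ENNReal

theorem kern_eq (ε R : ℝ) (G₀ G₁ G₂ : ℝ × ℝ → ℂ) : kern ε R G₀ G₁ G₂ =
    Set.indicator {x : ℝ × ℝ × ℝ | ε < |x.1 + x.2.1 + x.2.2| ∧ |x.1 + x.2.1 + x.2.2| < R}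
      (fun x => G₀ (x.1, x.2.1) * G₁ (x.2.1, x.2.2) * G₂ (x.2.2, x.1)
        / ((x.1 + x.2.1 + x.2.2 : ℝ) : ℂ)) := by
  funext x
  by_cases h : ε < |x.1 + x.2.1 + x.2.2| ∧ |x.1 + x.2.1 + x.2.2| < R
  · rw [Set.indicator_of_mem (by exact h), kern, if_pos h]
  · rw [Set.indicator_of_notMem (by exact h), kern, if_neg h]

theorem meas_set (ε R : ℝ) : MeasurableSet
    {x : ℝ × ℝ × ℝ | ε < |x.1 + x.2.1 + x.2.2| ∧ |x.1 + x.2.1 + x.2.2| < R} := by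
  have h : Measurable fun x : ℝ × ℝ × ℝ => |x.1 + x.2.1 + x.2.2| := by fun_prop
  exact (measurableSet_lt measurable_const h).inter (measurableSet_lt h measurable_const)

/-- The bound for all exponents `p₀, p₁, p₂ > 2` with `1/p₀ + 1/p₁ + 1/p₂ = 1`. -/
theorem result (p₀ p₁ p₂ : ℝ≥0∞) (h0 : 2 < p₀) (h1 : 2 < p₁) (h2 : 2 < p₂)
    (h : p₀⁻¹ + p₁⁻¹ + p₂⁻¹ = 1) :
    ∃ C : ℝ, ∀ G₀ G₁ G₂ : ℝ × ℝ → ℂ,
      MemLp G₀ p₀ volume → MemLp G₁ p₁ volume → MemLp G₂ p₂ volume →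
      ∀ ε R : ℝ, 0 < ε → ε < R →
        IntegrableOn (fun x : ℝ × ℝ × ℝ =>
            G₀ (x.1, x.2.1) * G₁ (x.2.1, x.2.2) * G₂ (x.2.2, x.1)
              / ((x.1 + x.2.1 + x.2.2 : ℝ) : ℂ))
          {x | ε < |x.1 + x.2.1 + x.2.2| ∧ |x.1 + x.2.1 + x.2.2| < R} volume ∧
        ‖∫ x in {x : ℝ × ℝ × ℝ | ε < |x.1 + x.2.1 + x.2.2| ∧ |x.1 + x.2.1 + x.2.2| < R},
            G₀ (x.1, x.2.1) * G₁ (x.2.1, x.2.2) * G₂ (x.2.2, x.1)
              / ((x.1 + x.2.1 + x.2.2 : ℝ) : ℂ)‖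
          ≤ C * ((eLpNorm G₀ p₀ volume).toReal * (eLpNorm G₁ p₁ volume).toReal
            * (eLpNorm G₂ p₂ volume).toReal) := by
  have H := ht_of h0 h1 h2 h
  obtain ⟨C, -, hC⟩ := full_all H
  refine ⟨C, fun G₀ G₁ G₂ m0 m1 m2 ε R hε hR => ?_⟩
  have hi := int_kern H (R := R) hε m0 m1 m2
  have hb := hC G₀ G₁ G₂ m0 m1 m2 ε R hε hR
  unfold H903.T at hb
  rw [kern_eq] at hi hb
  exact ⟨(integrable_indicator_iff (meas_set ε R)).1 hi,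
    by rwa [integral_indicator (meas_set ε R)] at hb⟩

end Vale.Agent.Results.P075.A0AllExponents
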